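import Vale.Agent.P355.MathlibUsed

/-! Matrix formulation used in the final statements of P355. -/

namespace Vale.Agent.P355

/-- `6 × 6` complex matrices. -/
abbrev M6 : Type := Matrix (Fin 6) (Fin 6) ℂ

/-- `A` is unitary, i.e. its columns form an orthonormal basis of `ℂ⁶`. -/
def Unitary6 (A : M6) : Prop := A.conjTranspose * A = 1

/-- The orthonormal bases given by the columns of `A` and of `C` are mutually unbiased. -/
def Unbiased (A C : M6) : Prop :=
  ∀ k l, Complex.normSq ((A.conjTranspose * C) k l) = 1 / 6

/-- `U` maps every line spanned by a column of `A` to a line spanned by a column of `A`. -/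
def Preserves (U A : M6) : Prop :=
  ∀ k, ∃ l, ∃ z : ℂ, ∀ r, (U * A) r k = z * A r l

/-- `B` is a set of `n` pairwise mutually unbiased bases (the columns of `B i`). -/
def IsMUBs {n : ℕ} (B : Fin n → M6) : Prop :=
  (∀ i, Unitary6 (B i)) ∧ ∀ i j, i ≠ j → Unbiased (B i) (B j)

/-- `U` is a unitary symmetry of each of the bases `B i`. -/
def IsSymmetry {n : ℕ} (B : Fin n → M6) (U : M6) : Prop :=
  Unitary6 U ∧ ∀ i, Preserves U (B i)

/-- `U` is a multiple of `V`. -/
def IsMultiple (U V : M6) : Prop := ∃ c : ℂ, U = c • V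

end Vale.Agent.P355
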